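import Vale.Agent.P359.Gap
import Vale.Agent.P359.Spin
import Vale.Agent.P359.Mom.ModelMom
import Vale.Agent.P359.Mom.ModelObj
import Vale.Agent.P359.Mom.ModelReduce
import Vale.Agent.P359.Mom.Window
import Vale.Agent.P359.Mom.CertBound

namespace Vale.Agent.Results.P359.UniformGap

open Vale.Agent.P359 Upper Kernel Gap Spin

/-- The pair vectors are the spin `Q - 1` multiplet, and the spherical Laughlin Hamiltonian at
filling one third has a gap above the Laughlin vector that is uniform in the number of particles. -/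
theorem result :
    (∀ Q : ℕ, lowerPair Q (pairVec Q 1) = 0 ∧
      ∀ s, raisePair Q (pairVec Q s) = (s : ℝ) • pairVec Q (s + 1)) ∧
    ∃ δ : ℝ, 0 < δ ∧ ∃ N₀ : ℕ, ∀ N : ℕ, N₀ ≤ N →
      (IsFermion (fun x => (laughlinState N x : ℂ)) ∧ 0 < normSq (laughlinState N) ∧
        expect (fun x => (laughlinState N x : ℂ)) = 0) ∧
      ∀ ψ : Orbs N (3 * (N - 1)) → ℂ, IsFermion ψ → δ * offLaughlin ψ ≤ expect ψ :=
  ⟨pairVec_multiplet,
    uniformGap (Mom.gapPin_of Mom.momPin Mom.objPin Mom.reducePin Mom.winPin Mom.boundPin)⟩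

end Vale.Agent.Results.P359.UniformGap
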