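import Vale.Agent.P359.Upper.Trial

namespace Vale.Agent.Results.P359.UniformUpperBound

open Vale.Agent.P359.Upper

/-- At the Laughlin flux, for every number `N = m + 1 ≥ 2` of particles, two orthogonal fermionic
states span a plane on which the quadratic form of the pair Hamiltonian is at most `10`. -/
theorem result :
    ∀ m : ℕ, 1 ≤ m → ∃ f g : Orbs (m + 1) (3 * m) → ℝ,
      IsFermionic f ∧ IsFermionic g ∧ 0 < normSq f ∧ 0 < normSq g ∧ ∑ y, f y * g y = 0 ∧
        ∀ b c : ℝ, energy (fun y => b * f y + c * g y) ≤ 10 * normSq (fun y => b * f y + c * g y) :=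
  fun _ hm => exists_pair hm

end Vale.Agent.Results.P359.UniformUpperBound
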